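import Vale.Agent.P325.H719.List

/-!
# The list bound: conclusion
-/

open Module

namespace Vale.Agent.P325.H719

open Vale.Agent.P325.Star

section Att

variable {T W : Type} [AddCommGroup T] [Module F T] [Finite T] [AddCommGroup W] [Module F W]
  [Finite W]

/-- The attributes of a tuple in the kernel `K` of a sunflower. -/
noncomputable def att (K : Submodule F T) (s : Tup T W) :
    (K → Bool) × (K → W) × Option (K × W) := by
  classical exact
  (fun x => decide ((x : T) ∈ s.A), fun x => ext0 s x,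
    if h : ∃ κ : K, s.t - κ ∈ s.A then some (h.choose, s.w + ext0 s (s.t - h.choose)) else none)

/-- The attributes which determine a tuple in `D`. -/
noncomputable def full (D : Submodule F T) (s : Tup T W) :
    (D → Bool) × (D → W) × D × W := by
  classical exact
  (fun x => decide ((x : T) ∈ s.A), fun x => ext0 s x,
    if h : s.t ∈ D then ⟨s.t, h⟩ else 0, s.w)

omit [Finite T] [Finite W] in
theorem full_inj {D : Submodule F T} {s s' : Tup T W} (hs : Dsp s = D) (hs' : Dsp s' = D)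
    (h : full D s = full D s') : s = s' := by
  classical
  simp only [full, Prod.mk.injEq] at h
  obtain ⟨h1, h2, h3, h4⟩ := h
  have hA : s.A = s'.A := by
    ext x
    constructor
    · intro hx
      have hxD : x ∈ D := by rw [← hs]; exact A_le_Dsp s hx
      have := congrFun h1 ⟨x, hxD⟩
      simpa [hx] using this
    · intro hx
      have hxD : x ∈ D := by rw [← hs']; exact A_le_Dsp s' hx
      have := congrFun h1 ⟨x, hxD⟩
      simpa [hx] using this
  refine tup_ext hA (fun x hx hx' => ?_) ?_ h4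
  · have hxD : x ∈ D := by rw [← hs]; exact A_le_Dsp s hx
    have := congrFun h2 ⟨x, hxD⟩
    rwa [ext0_of_mem hx, ext0_of_mem hx'] at this
  · have h5 : s.t ∈ D := by rw [← hs]; exact t_mem_Dsp s
    have h6 : s'.t ∈ D := by rw [← hs']; exact t_mem_Dsp s'
    rw [dif_pos h5, dif_pos h6] at h3
    exact congrArg Subtype.val h3

theorem card_sub_le (D : Submodule F T) {r : ℕ} (h : finrank F D ≤ r) :
    Nat.card D ≤ 2 ^ r := by
  rw [Module.natCard_eq_pow_finrank (K := F), Nat.card_zmod]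
  exact Nat.pow_le_pow_right (by norm_num) h

theorem card_att (K : Submodule F T) {r m : ℕ} (h : finrank F K ≤ r) (hW : finrank F W = m) :
    Nat.card ((K → Bool) × (K → W) × Option (K × W)) ≤
      2 ^ 2 ^ r * ((2 ^ m) ^ 2 ^ r * (2 ^ r * 2 ^ m + 1)) := by
  have h1 : Nat.card K ≤ 2 ^ r := card_sub_le K h
  have h2 : Nat.card W = 2 ^ m := by
    rw [Module.natCard_eq_pow_finrank (K := F), Nat.card_zmod, hW]
  rw [Nat.card_prod, Nat.card_prod, Nat.card_fun, Nat.card_fun, Nat.card_eq_fintype_card (α := Bool),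
    Fintype.card_bool, h2]
  have h3 : Nat.card (Option (K × W)) ≤ 2 ^ r * 2 ^ m + 1 := by
    rw [Finite.card_option, Nat.card_prod, h2]
    exact Nat.succ_le_succ (Nat.mul_le_mul_right _ h1)
  refine Nat.mul_le_mul (Nat.pow_le_pow_right (by norm_num) h1) (Nat.mul_le_mul ?_ h3)
  exact Nat.pow_le_pow_right (by positivity) h1

theorem card_full (D : Submodule F T) {r m : ℕ} (h : finrank F D ≤ r) (hW : finrank F W = m) :
    Nat.card ((D → Bool) × (D → W) × D × W) ≤
      2 ^ 2 ^ r * ((2 ^ m) ^ 2 ^ r * (2 ^ r * 2 ^ m)) := by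
  have h1 : Nat.card D ≤ 2 ^ r := card_sub_le D h
  have h2 : Nat.card W = 2 ^ m := by
    rw [Module.natCard_eq_pow_finrank (K := F), Nat.card_zmod, hW]
  rw [Nat.card_prod, Nat.card_prod, Nat.card_prod, Nat.card_fun, Nat.card_fun,
    Nat.card_eq_fintype_card (α := Bool), Fintype.card_bool, h2]
  refine Nat.mul_le_mul (Nat.pow_le_pow_right (by norm_num) h1)
    (Nat.mul_le_mul ?_ (Nat.mul_le_mul_right _ h1))
  exact Nat.pow_le_pow_right (by positivity) h1

end Att

/-- **There are boundedly many candidates.** -/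
theorem listBound : ListBound := by
  classical
  intro θ j hθ
  obtain ⟨m₀, hm₀⟩ : ∃ m₀ : ℕ, 2 / θ ^ 2 < (2 : ℝ) ^ m₀ :=
    pow_unbounded_of_one_lt _ (by norm_num)
  refine ⟨m₀, fun m => ?_⟩
  -- size of the petals
  obtain ⟨s0, hs0⟩ : ∃ s0 : ℕ, (2 + 2 / θ + 2 / θ ^ 2) * ((2 : ℝ) ^ m) ^ j < s0 :=
    exists_nat_gt _
  set C2 : ℕ := 2 ^ 2 ^ (j + 1) * ((2 ^ m) ^ 2 ^ (j + 1) * (2 ^ (j + 1) * 2 ^ m + 1)) with hC2
  set C1 : ℕ := 2 ^ 2 ^ (j + 1) * ((2 ^ m) ^ 2 ^ (j + 1) * (2 ^ (j + 1) * 2 ^ m)) with hC1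
  obtain ⟨N1, hN1⟩ := sunflower.{0, 0} (F := F) (j + 1) (C2 * s0 + 2)
  refine ⟨C1 * N1, fun T W _ _ _ _ _ _ G B N₀ hW hB => ?_⟩
  have hTfin : Finite (Tup T W) := finite_tup
  have hfin : (Cand θ (θ / 4) j G B N₀).Finite := Set.toFinite _
  refine ⟨?_, hfin⟩
  set CC := hfin.toFinset with hCC
  have hmem : ∀ s, s ∈ CC ↔ s ∈ Cand θ (θ / 4) j G B N₀ := fun s => Set.Finite.mem_toFinset _
  have hcardCC : Nat.card (Cand θ (θ / 4) j G B N₀) = CC.card := by
    rw [Nat.card_coe_set_eq, Set.ncard_eq_toFinset_card _ hfin]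
  rw [hcardCC]
  by_contra hcon
  push Not at hcon
  set DD := CC.image Dsp with hDD
  have hrank : ∀ s ∈ CC, finrank F (Dsp s) ≤ j + 1 := by
    intro s hs
    have h1 := finrank_Dsp_le s
    rw [((hmem s).1 hs).1] at h1
    exact h1
  have hfib : ∀ D ∈ DD, (CC.filter fun s => Dsp s = D).card ≤ C1 := by
    intro D hD
    obtain ⟨s, hs, rfl⟩ := Finset.mem_image.1 hD
    set D := Dsp s with hDs
    have h1 : (CC.filter fun s => Dsp s = D).card ≤
        Nat.card ((D → Bool) × (D → W) × D × W) := by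
      let _ : Fintype ((D → Bool) × (D → W) × D × W) := Fintype.ofFinite _
      rw [Nat.card_eq_fintype_card]
      refine Finset.card_le_card_of_injOn (full D) (fun _ _ => Finset.mem_coe.2 (Finset.mem_univ _)) ?_
      intro a ha b hb hab
      rw [Finset.mem_coe, Finset.mem_filter] at ha hb
      exact full_inj ha.2 hb.2 hab
    exact h1.trans (card_full D (hrank s hs) hW)
  have hDDcard : N1 ≤ DD.card := by
    have h1 := Finset.card_le_mul_card_image (f := Dsp) CC C1 hfib
    by_contra h2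
    push Not at h2
    have h3 : C1 * (CC.image Dsp).card ≤ C1 * N1 := Nat.mul_le_mul_left _ h2.le
    omega
  obtain ⟨SS, hSS, hSSc, K, hK⟩ := hN1 T DD (by
    intro D hD
    obtain ⟨s, hs, rfl⟩ := Finset.mem_image.1 hD
    exact hrank s hs) hDDcard
  -- representatives
  have hrep : ∀ D ∈ SS, ∃ s ∈ CC, Dsp s = D := fun D hD => by
    obtain ⟨s, hs, hs'⟩ := Finset.mem_image.1 (hSS hD)
    exact ⟨s, hs, hs'⟩
  have hne : Nonempty (Tup T W) := ⟨⟨⊥, 0, 0, 0⟩⟩
  choose! σ hσ hσD using hrep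
  have hKrank : finrank F K ≤ j + 1 := by
    have h1 : 1 < SS.card := by rw [hSSc]; omega
    obtain ⟨D, hD, D', hD', hne'⟩ := Finset.one_lt_card.1 h1
    rw [← hK D hD D' hD' hne']
    refine (Submodule.finrank_mono (inf_le_left)).trans ?_
    rw [← hσD D hD]
    exact hrank _ (hσ D hD)
  -- pigeonhole
  let ty := (K → Bool) × (K → W) × Option (K × W)
  let _ : Fintype ty := Fintype.ofFinite _
  have hty : Fintype.card ty ≤ C2 := by
    rw [← Nat.card_eq_fintype_card]
    exact card_att K hKrank hW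
  obtain ⟨y, -, hy⟩ := Finset.exists_lt_card_fiber_of_mul_lt_card_of_maps_to
    (s := SS) (t := (Finset.univ : Finset ty)) (f := fun D => att K (σ D)) (n := s0)
    (fun _ _ => Finset.mem_univ _) (by
      rw [Finset.card_univ, hSSc]
      have := Nat.mul_le_mul_right s0 hty
      omega)
  set S1 := SS.filter fun D => att K (σ D) = y with hS1
  have hS1m : ∀ D ∈ S1, D ∈ SS ∧ att K (σ D) = y := fun D hD => Finset.mem_filter.1 hD
  have heq : ∀ D ∈ S1, ∀ D' ∈ S1, att K (σ D) = att K (σ D') := fun D hD D' hD' =>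
    (hS1m D hD).2.trans (hS1m D' hD').2.symm
  -- numbers
  have hBm : (Nat.card B : ℝ) ≤ (2 : ℝ) ^ m := by
    have h1 : Nat.card B ≤ 2 ^ m := by
      rw [Module.natCard_eq_pow_finrank (K := F), Nat.card_zmod]
      apply Nat.pow_le_pow_right (by norm_num)
      rw [← hW]
      exact Submodule.finrank_le B
    exact_mod_cast h1
  have hB2 : (2 : ℝ) ^ m₀ ≤ Nat.card B := by
    have h1 : 2 ^ m₀ ≤ Nat.card B := by
      rw [Module.natCard_eq_pow_finrank (K := F), Nat.card_zmod]
      exact Nat.pow_le_pow_right (by norm_num) hB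
    exact_mod_cast h1
  have hB0 : (0 : ℝ) < Nat.card B := lt_of_lt_of_le (by positivity) hB2
  have hBj : (0 : ℝ) < (Nat.card B : ℝ) ^ j := pow_pos hB0 j
  have hBj' : (Nat.card B : ℝ) ^ j ≤ ((2 : ℝ) ^ m) ^ j := pow_le_pow_left₀ hB0.le hBm j
  have hS1c : (s0 : ℝ) < S1.card := by exact_mod_cast hy
  have hratio : 2 + 2 / θ + 2 / θ ^ 2 < S1.card / (Nat.card B : ℝ) ^ j := by
    rw [lt_div_iff₀ hBj]
    calc (2 + 2 / θ + 2 / θ ^ 2) * (Nat.card B : ℝ) ^ j
        ≤ (2 + 2 / θ + 2 / θ ^ 2) * ((2 : ℝ) ^ m) ^ j :=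
          mul_le_mul_of_nonneg_left hBj' (by positivity)
      _ < s0 := hs0
      _ < S1.card := hS1c
  have hθ2 : 0 < θ ^ 2 := by positivity
  have hd1 : 0 < 2 / θ := by positivity
  have hd2 : 0 < 2 / θ ^ 2 := by positivity
  refine petals (G := G) (N₀ := N₀) hθ K S1 σ (fun D hD => (hmem _).1 (hσ D (hS1m D hD).1))
    (fun D hD => hσD D (hS1m D hD).1)
    (fun D hD D' hD' => hK D (hS1m D hD).1 D' (hS1m D' hD').1)
    (fun D hD D' hD' x hx => ?_) (fun D hD D' hD' x hx => ?_) ?_ ?_ ?_ ?_ ?_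
  · have h1 := congrArg (fun a => a.1 ⟨x, hx⟩) (heq D hD D' hD')
    simp only [att, decide_eq_decide] at h1
    exact h1
  · have h1 := congrArg (fun a => a.2.1 ⟨x, hx⟩) (heq D hD D' hD')
    simp only [att] at h1
    exact h1
  · -- the case distinction
    rcases hy3 : y.2.2 with _ | ⟨κ, w'⟩
    · left
      intro D hD κ hκ hcon2
      have h1 : (att K (σ D)).2.2 = none := by rw [(hS1m D hD).2, hy3]
      simp only [att] at h1
      rw [dif_pos ⟨⟨κ, hκ⟩, hcon2⟩] at h1
      exact absurd h1 (Option.some_ne_none _)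
    · right
      refine ⟨κ, κ.2, w', fun D hD => ?_⟩
      have h1 : (att K (σ D)).2.2 = some (κ, w') := by rw [(hS1m D hD).2, hy3]
      simp only [att] at h1
      by_cases h : ∃ κ : K, (σ D).t - κ ∈ (σ D).A
      · rw [dif_pos h, Option.some.injEq, Prod.mk.injEq] at h1
        have h2 := h.choose_spec
        rw [h1.1] at h2
        refine ⟨h2, ?_⟩
        rw [← h1.2, h1.1]
      · rw [dif_neg h] at h1
        exact absurd h1.symm (Option.some_ne_none _)
  · -- at least two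
    have h1 : (2 : ℝ) < S1.card := by
      have h2 : (2 : ℝ) ≤ (2 + 2 / θ + 2 / θ ^ 2) * ((2 : ℝ) ^ m) ^ j := by
        have h3 : (1 : ℝ) ≤ ((2 : ℝ) ^ m) ^ j := one_le_pow₀ (one_le_pow₀ (by norm_num))
        nlinarith
      linarith
    exact_mod_cast h1.le
  · have h1 : θ * (2 / θ) = 2 := by field_simp
    have h2 : θ * (2 / θ) ≤ θ * (S1.card / (Nat.card B : ℝ) ^ j) :=
      mul_le_mul_of_nonneg_left (by linarith) hθ.le
    linarith
  · have h1 : θ ^ 2 * (2 / θ ^ 2) = 2 := by field_simp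
    have h2 : θ ^ 2 * (2 / θ ^ 2) ≤ θ ^ 2 * (S1.card / (Nat.card B : ℝ) ^ j) :=
      mul_le_mul_of_nonneg_left (by linarith) hθ2.le
    nlinarith
  · have h1 : 2 / θ ^ 2 < Nat.card B := hm₀.trans_le hB2
    rw [div_lt_iff₀ hθ2] at h1
    rw [div_lt_div_iff₀ hB0 (by norm_num)]
    nlinarith

end Vale.Agent.P325.H719
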