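import Vale.Agent.P325.Star.Defs

/-!
# Counting the maps with prescribed values
-/

open Module

namespace Vale.Agent.P325.H719

open Vale.Agent.P325.Star

variable {T W : Type} [AddCommGroup T] [Module F T] [Finite T] [AddCommGroup W] [Module F W]
  [Finite W]

theorem finite_hom : Finite (T →ₗ[F] W) := DFunLike.finite _

/-- The maps with range in `B` vanishing on `A` are the maps from the quotient to `B`. -/
def zoomEquiv (B : Submodule F W) (A : Submodule F T) : zoom B A ≃ ((T ⧸ A) →ₗ[F] B) where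
  toFun M := A.liftQ ((M : T →ₗ[F] W).codRestrict B (mem_zoom.1 M.2).1) (by
    intro a ha
    rw [LinearMap.mem_ker]
    apply Subtype.ext
    exact (mem_zoom.1 M.2).2 a ha)
  invFun N := ⟨B.subtype ∘ₗ N ∘ₗ A.mkQ, mem_zoom.2 ⟨fun v => (N (A.mkQ v)).2, fun a ha => by
    have h1 : A.mkQ a = 0 := by rwa [Submodule.mkQ_apply, Submodule.Quotient.mk_eq_zero]
    rw [LinearMap.comp_apply, LinearMap.comp_apply, h1, map_zero, map_zero]⟩⟩
  left_inv M := by
    apply Subtype.ext
    ext v
    rfl
  right_inv N := by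
    apply LinearMap.ext
    intro v
    obtain ⟨v, rfl⟩ := A.mkQ_surjective v
    rfl

theorem card_zoom_mul (B : Submodule F W) (A : Submodule F T) :
    Nat.card (zoom B A) * Nat.card B ^ finrank F A = Nat.card B ^ finrank F T := by
  have h0 : Finite (T ⧸ A) := Finite.of_surjective _ A.mkQ_surjective
  have h1 : Nat.card (zoom B A) = Nat.card B ^ finrank F (T ⧸ A) := by
    rw [Nat.card_congr (zoomEquiv B A), Module.natCard_eq_pow_finrank (K := F),
      Module.natCard_eq_pow_finrank (K := F) (V := B), finrank_linearMap, ← pow_mul,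
      mul_comm (finrank F B)]
  rw [h1, ← pow_add, Submodule.finrank_quotient_add_finrank]

theorem card_zoom_pos (B : Submodule F W) (A : Submodule F T) : 0 < Nat.card (zoom B A) := by
  have := finite_hom (T := T) (W := W)
  exact Nat.card_pos

/-- The maps of the coset with prescribed values on `A`. -/
def pre (B : Submodule F W) (N₀ : T →ₗ[F] W) (A : Submodule F T) (c : T → W) :
    Set (T →ₗ[F] W) :=
  {N | N - N₀ ∈ zoom B (⊥ : Submodule F T) ∧ ∀ a ∈ A, N a = c a}

theorem card_pre_of_mem {B : Submodule F W} {N₀ : T →ₗ[F] W} {A : Submodule F T} {c : T → W}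
    {N₁ : T →ₗ[F] W} (h : N₁ ∈ pre B N₀ A c) : Nat.card (pre B N₀ A c) = Nat.card (zoom B A) := by
  have key : ∀ N : T →ₗ[F] W, N ∈ pre B N₀ A c ↔ N - N₁ ∈ zoom B A := by
    intro N
    have h1 := mem_zoom.1 h.1
    rw [mem_zoom]
    constructor
    · rintro ⟨h2, h3⟩
      rw [mem_zoom] at h2
      refine ⟨fun v => ?_, fun a ha => ?_⟩
      · have h4 : (N - N₁) v = (N - N₀) v - (N₁ - N₀) v := by simp
        rw [h4]
        exact B.sub_mem (h2.1 v) (h1.1 v)
      · rw [LinearMap.sub_apply, h3 a ha, h.2 a ha, sub_self]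
    · rintro ⟨h2, h3⟩
      refine ⟨mem_zoom.2 ⟨fun v => ?_, fun a ha => ?_⟩, fun a ha => ?_⟩
      · have h4 : (N - N₀) v = (N - N₁) v + (N₁ - N₀) v := by simp
        rw [h4]
        exact B.add_mem (h2 v) (h1.1 v)
      · rw [Submodule.mem_bot] at ha
        rw [ha, map_zero]
      · have h4 := h3 a ha
        rw [LinearMap.sub_apply, sub_eq_zero] at h4
        rw [h4, h.2 a ha]
  exact Nat.card_congr
    { toFun := fun N => ⟨(N : T →ₗ[F] W) - N₁, (key _).1 N.2⟩
      invFun := fun M => ⟨(M : T →ₗ[F] W) + N₁, (key _).2 (by rw [add_sub_cancel_right]; exact M.2)⟩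
      left_inv := fun N => Subtype.ext (sub_add_cancel _ _)
      right_inv := fun M => Subtype.ext (add_sub_cancel_right _ _) }

theorem card_pre_le {B : Submodule F W} {N₀ : T →ₗ[F] W} {A : Submodule F T} {c : T → W} :
    Nat.card (pre B N₀ A c) ≤ Nat.card (zoom B A) := by
  by_cases h : (pre B N₀ A c).Nonempty
  · obtain ⟨N₁, h1⟩ := h
    exact (card_pre_of_mem h1).le
  · rw [Set.not_nonempty_iff_eq_empty] at h
    rw [h]
    simp

/-- The real form of the count. -/
theorem card_zoom_real (B : Submodule F W) (A : Submodule F T) :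
    (Nat.card (zoom B A) : ℝ) = (Nat.card B : ℝ) ^ finrank F T / (Nat.card B : ℝ) ^ finrank F A := by
  have h1 := card_zoom_mul (T := T) B A
  have h2 : (0 : ℝ) < (Nat.card B : ℝ) ^ finrank F A := by
    have : 0 < Nat.card B := Nat.card_pos
    positivity
  rw [eq_div_iff h2.ne']
  exact_mod_cast h1

end Vale.Agent.P325.H719
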