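import Mathlib

/-!
# Second moment lemmas
-/

open Finset

namespace Vale.Agent.P325.H719

variable {α ι : Type*} [DecidableEq α] [DecidableEq ι]

/-- The number of the sets which contain a point. -/
def cnt (I : Finset ι) (E : ι → Finset α) (ω : α) : ℝ := ∑ i ∈ I, if ω ∈ E i then (1 : ℝ) else 0

theorem sum_cnt (Z : Finset α) (I : Finset ι) (E : ι → Finset α) :
    ∑ ω ∈ Z, cnt I E ω = ∑ i ∈ I, ((Z ∩ E i).card : ℝ) := by
  unfold cnt
  rw [Finset.sum_comm]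
  refine Finset.sum_congr rfl fun i _ => ?_
  rw [Finset.sum_ite_mem, Finset.sum_const, nsmul_eq_mul, mul_one]

theorem sum_cnt_sq (Z : Finset α) (I : Finset ι) (E : ι → Finset α) :
    ∑ ω ∈ Z, cnt I E ω ^ 2 = ∑ i ∈ I, ∑ l ∈ I, ((Z ∩ (E i ∩ E l)).card : ℝ) := by
  have h1 : ∀ ω, cnt I E ω ^ 2 = ∑ i ∈ I, ∑ l ∈ I, if ω ∈ E i ∩ E l then (1 : ℝ) else 0 := by
    intro ω
    unfold cnt
    rw [pow_two, Finset.sum_mul_sum]
    refine Finset.sum_congr rfl fun i _ => Finset.sum_congr rfl fun l _ => ?_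
    by_cases h1 : ω ∈ E i <;> by_cases h2 : ω ∈ E l <;> simp [h1, h2]
  simp only [h1]
  rw [Finset.sum_comm]
  refine Finset.sum_congr rfl fun i _ => ?_
  rw [Finset.sum_comm]
  refine Finset.sum_congr rfl fun l _ => ?_
  rw [Finset.sum_ite_mem, Finset.sum_const, nsmul_eq_mul, mul_one]

/-- Upper bound for the second moment. -/
theorem sum_cnt_sq_le {Om : Finset α} {I : Finset ι} {E : ι → Finset α} {a b : ℝ}
    (hE : ∀ i ∈ I, E i ⊆ Om) (h1 : ∀ i ∈ I, ((E i).card : ℝ) ≤ a)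
    (hb : 0 ≤ b)
    (h2 : ∀ i ∈ I, ∀ l ∈ I, i ≠ l → ((E i ∩ E l).card : ℝ) ≤ b) :
    ∑ ω ∈ Om, cnt I E ω ^ 2 ≤ ∑ i ∈ I, ((E i).card : ℝ) + I.card * I.card * b := by
  rw [sum_cnt_sq]
  have h3 : ∀ i ∈ I, ∑ l ∈ I, ((Om ∩ (E i ∩ E l)).card : ℝ) ≤ (E i).card + I.card * b := by
    intro i hi
    rw [← Finset.add_sum_erase I _ hi]
    have h4 : ((Om ∩ (E i ∩ E i)).card : ℝ) = (E i).card := by
      rw [Finset.inter_self, Finset.inter_eq_right.2 (hE i hi)]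
    have h5 : ∑ l ∈ I.erase i, ((Om ∩ (E i ∩ E l)).card : ℝ) ≤ ∑ _l ∈ I.erase i, b := by
      refine Finset.sum_le_sum fun l hl => ?_
      rw [Finset.mem_erase] at hl
      refine le_trans ?_ (h2 i hi l hl.2 (Ne.symm hl.1))
      exact_mod_cast Finset.card_le_card Finset.inter_subset_right
    rw [Finset.sum_const, nsmul_eq_mul] at h5
    have h6 : ((I.erase i).card : ℝ) * b ≤ I.card * b := by
      apply mul_le_mul_of_nonneg_right _ hb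
      exact_mod_cast Finset.card_le_card (Finset.erase_subset _ _)
    rw [h4]
    linarith
  calc ∑ i ∈ I, ∑ l ∈ I, ((Om ∩ (E i ∩ E l)).card : ℝ)
      ≤ ∑ i ∈ I, (((E i).card : ℝ) + I.card * b) := Finset.sum_le_sum h3
    _ = ∑ i ∈ I, ((E i).card : ℝ) + I.card * I.card * b := by
      rw [Finset.sum_add_distrib, Finset.sum_const, nsmul_eq_mul]
      ring

/-- Many pairwise independent events cannot all be correlated with a small set. -/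
theorem sm_small {Om Z : Finset α} {I : Finset ι} {E : ι → Finset α} {p θ : ℝ}
    (hp : 0 < p) (hθ : 0 < θ) (hOm : Om.Nonempty) (hI : I.Nonempty)
    (hE : ∀ i ∈ I, E i ⊆ Om) (h1 : ∀ i ∈ I, ((E i).card : ℝ) = p * Om.card)
    (h2 : ∀ i ∈ I, ∀ l ∈ I, i ≠ l → ((E i ∩ E l).card : ℝ) ≤ p ^ 2 * Om.card)
    (hZ : Z ⊆ Om) (hZc : (Z.card : ℝ) ≤ θ / 4 * Om.card)
    (h3 : ∀ i ∈ I, θ * (E i).card ≤ ((Z ∩ E i).card : ℝ)) :
    9 / 16 * θ ^ 2 * (I.card * p) ≤ 1 := by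
  set w : ℝ := (Om.card : ℝ) with hw
  set s : ℝ := (I.card : ℝ) with hs
  have hw0 : 0 < w := by
    rw [hw]; exact_mod_cast hOm.card_pos
  have hs0 : 0 < s := by
    rw [hs]; exact_mod_cast hI.card_pos
  set μ : ℝ := s * p with hμ
  have hμ0 : 0 < μ := mul_pos hs0 hp
  have e1 : ∑ i ∈ I, ((E i).card : ℝ) = μ * w := by
    rw [Finset.sum_congr rfl h1, Finset.sum_const, nsmul_eq_mul, hμ, hs]
    ring
  have e2 : ∑ ω ∈ Om, cnt I E ω = μ * w := by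
    rw [sum_cnt, ← e1]
    refine Finset.sum_congr rfl fun i hi => ?_
    rw [Finset.inter_eq_right.2 (hE i hi)]
  have e3 : ∑ ω ∈ Om, cnt I E ω ^ 2 ≤ μ * w + s * s * (p ^ 2 * w) := by
    rw [← e1]
    exact sum_cnt_sq_le hE (fun i hi => (h1 i hi).le) (by positivity) h2
  have e4 : ∑ ω ∈ Om, (cnt I E ω - μ) ^ 2 ≤ μ * w := by
    have h4 : ∑ ω ∈ Om, (cnt I E ω - μ) ^ 2 = ∑ ω ∈ Om, cnt I E ω ^ 2 -
        2 * μ * ∑ ω ∈ Om, cnt I E ω + μ ^ 2 * w := by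
      have h5 : ∀ ω, (cnt I E ω - μ) ^ 2 = cnt I E ω ^ 2 - 2 * μ * cnt I E ω + μ ^ 2 := by
        intro ω; ring
      simp only [h5, Finset.sum_add_distrib, Finset.sum_sub_distrib, ← Finset.mul_sum,
        Finset.sum_const, nsmul_eq_mul]
      ring
    rw [h4, e2]
    have : s * s * (p ^ 2 * w) = μ ^ 2 * w := by rw [hμ]; ring
    nlinarith
  have e5 : 3 / 4 * θ * μ * w ≤ ∑ ω ∈ Z, (cnt I E ω - μ) := by
    rw [Finset.sum_sub_distrib, sum_cnt, Finset.sum_const, nsmul_eq_mul]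
    have h6 : ∑ i ∈ I, θ * ((E i).card : ℝ) ≤ ∑ i ∈ I, ((Z ∩ E i).card : ℝ) :=
      Finset.sum_le_sum h3
    rw [← Finset.mul_sum, e1] at h6
    have h7 : (Z.card : ℝ) * μ ≤ θ / 4 * w * μ := mul_le_mul_of_nonneg_right hZc hμ0.le
    nlinarith
  have e6 : (∑ ω ∈ Z, (cnt I E ω - μ)) ^ 2 ≤ w * (μ * w) := by
    have h8 := sq_sum_le_card_mul_sum_sq (s := Z) (f := fun ω => cnt I E ω - μ)
    have h9 : ∑ ω ∈ Z, (cnt I E ω - μ) ^ 2 ≤ ∑ ω ∈ Om, (cnt I E ω - μ) ^ 2 :=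
      Finset.sum_le_sum_of_subset_of_nonneg hZ fun _ _ _ => sq_nonneg _
    have h10 : (Z.card : ℝ) ≤ w := by
      rw [hw]; exact_mod_cast Finset.card_le_card hZ
    have h11 : 0 ≤ ∑ ω ∈ Z, (cnt I E ω - μ) ^ 2 := Finset.sum_nonneg fun _ _ => sq_nonneg _
    calc (∑ ω ∈ Z, (cnt I E ω - μ)) ^ 2 ≤ Z.card * ∑ ω ∈ Z, (cnt I E ω - μ) ^ 2 := h8
      _ ≤ w * (μ * w) := mul_le_mul h10 (h9.trans e4) h11 hw0.le
  have e7 : (3 / 4 * θ * μ * w) ^ 2 ≤ w * (μ * w) := by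
    refine le_trans ?_ e6
    exact pow_le_pow_left₀ (by positivity) e5 2
  have e8 : (9 / 16 * θ ^ 2 * μ) * (μ * w ^ 2) ≤ 1 * (μ * w ^ 2) := by nlinarith
  exact le_of_mul_le_mul_right e8 (by positivity)

/-- Many events, with small pairwise intersections. -/
theorem sm_pairs {Om : Finset α} {I : Finset ι} {R : ι → Finset α} {p θ h : ℝ}
    (hp : 0 < p) (hθ : 0 < θ) (hh : 0 < h) (hOm : Om.Nonempty) (hI : I.Nonempty)
    (hR : ∀ i ∈ I, R i ⊆ Om) (h1 : ∀ i ∈ I, θ * (p * Om.card) ≤ ((R i).card : ℝ))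
    (h2 : ∀ i ∈ I, ∀ l ∈ I, i ≠ l → ((R i ∩ R l).card : ℝ) ≤ p ^ 2 / h * Om.card)
    (hbig : 2 ≤ θ * (I.card * p)) : θ ^ 2 / 2 ≤ 1 / h := by
  set w : ℝ := (Om.card : ℝ) with hw
  set s : ℝ := (I.card : ℝ) with hs
  have hw0 : 0 < w := by
    rw [hw]; exact_mod_cast hOm.card_pos
  have hs0 : 0 < s := by
    rw [hs]; exact_mod_cast hI.card_pos
  set y : ℝ := ∑ i ∈ I, ((R i).card : ℝ) with hy
  have e1 : θ * (s * p) * w ≤ y := by
    have h3 : ∑ _i ∈ I, θ * (p * w) ≤ y := Finset.sum_le_sum h1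
    rw [Finset.sum_const, nsmul_eq_mul] at h3
    calc θ * (s * p) * w = I.card * (θ * (p * w)) := by rw [hs]; ring
      _ ≤ y := h3
  have e2 : ∑ ω ∈ Om, cnt I R ω = y := by
    rw [sum_cnt, hy]
    refine Finset.sum_congr rfl fun i hi => ?_
    rw [Finset.inter_eq_right.2 (hR i hi)]
  have e3 : ∑ ω ∈ Om, cnt I R ω ^ 2 ≤ y + s * s * (p ^ 2 / h * w) :=
    sum_cnt_sq_le hR (a := w) (fun i hi => by
      rw [hw]; exact_mod_cast Finset.card_le_card (hR i hi)) (by positivity) h2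
  have e4 : y ^ 2 ≤ w * (y + s * s * (p ^ 2 / h * w)) := by
    have h4 := sq_sum_le_card_mul_sum_sq (s := Om) (f := cnt I R)
    rw [e2] at h4
    exact h4.trans (mul_le_mul_of_nonneg_left e3 hw0.le)
  -- put `y = e * w`
  obtain ⟨e, he⟩ : ∃ e : ℝ, e = y / w := ⟨_, rfl⟩
  have hye : y = e * w := by rw [he]; field_simp
  have e5 : θ * (s * p) ≤ e := by
    rw [he, le_div_iff₀ hw0]
    exact e1
  have e6 : 2 ≤ e := hbig.trans e5
  have e7 : e ^ 2 ≤ e + s * s * (p ^ 2 / h) := by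
    rw [hye] at e4
    have h5 : e ^ 2 * w ^ 2 ≤ (e + s * s * (p ^ 2 / h)) * w ^ 2 := by nlinarith
    exact le_of_mul_le_mul_right h5 (pow_pos hw0 2)
  have e8 : e ^ 2 / 2 ≤ s * s * (p ^ 2 / h) := by nlinarith
  have e9 : (θ * (s * p)) ^ 2 ≤ e ^ 2 :=
    pow_le_pow_left₀ (mul_nonneg hθ.le (mul_nonneg hs0.le hp.le)) e5 2
  have e10 : (θ ^ 2 / 2) * (s * p) ^ 2 ≤ (1 / h) * (s * p) ^ 2 := by
    have h6 : s * s * (p ^ 2 / h) = (1 / h) * (s * p) ^ 2 := by ring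
    rw [h6] at e8
    nlinarith
  exact le_of_mul_le_mul_right e10 (pow_pos (mul_pos hs0 hp) 2)

end Vale.Agent.P325.H719
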