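import Vale.Agent.P325.H719.Sun
import Vale.Agent.P325.H719.SM
import Vale.Agent.P325.H719.Cnt

/-!
# The list bound
-/

open Module

namespace Vale.Agent.P325.H719

open Vale.Agent.P325.Star

variable {T W : Type} [AddCommGroup T] [Module F T] [Finite T] [AddCommGroup W] [Module F W]
  [Finite W]

omit [Finite T] [Finite W] in
theorem tup_ext {s s' : Tup T W} (hA : s.A = s'.A)
    (hb : ∀ x (h : x ∈ s.A) (h' : x ∈ s'.A), s.b ⟨x, h⟩ = s'.b ⟨x, h'⟩) (ht : s.t = s'.t)
    (hw : s.w = s'.w) : s = s' := by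
  obtain ⟨A, b, t, w⟩ := s
  obtain ⟨A', b', t', w'⟩ := s'
  simp only at hA ht hw hb
  subst hA
  subst ht
  subst hw
  congr 1
  ext ⟨x, hx⟩
  exact hb x hx hx

/-- The values of a tuple, extended by zero. -/
noncomputable def ext0 (s : Tup T W) (x : T) : W := by
  classical exact if h : x ∈ s.A then s.b ⟨x, h⟩ else 0

omit [Finite T] [Finite W] in
theorem ext0_of_mem {s : Tup T W} {x : T} (h : x ∈ s.A) : ext0 s x = s.b ⟨x, h⟩ := by
  unfold ext0
  rw [dif_pos h]

/-- The space generated by a tuple. -/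
def Dsp (s : Tup T W) : Submodule F T := s.A ⊔ Submodule.span F {s.t}

omit [Finite T] [Finite W] in
theorem A_le_Dsp (s : Tup T W) : s.A ≤ Dsp s := le_sup_left

omit [Finite T] [Finite W] in
theorem t_mem_Dsp (s : Tup T W) : s.t ∈ Dsp s :=
  (le_sup_right : _ ≤ Dsp s) (Submodule.mem_span_singleton_self _)

omit [Finite W] in
theorem finrank_Dsp_le (s : Tup T W) : finrank F (Dsp s) ≤ finrank F s.A + 1 := by
  have h1 := Submodule.finrank_add_le_finrank_add_finrank s.A (Submodule.span F {s.t})
  have h2 : finrank F (Submodule.span F {s.t}) ≤ 1 := by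
    have h3 := finrank_span_le_card (R := F) ({s.t} : Set T)
    simpa using h3
  exact h1.trans (Nat.add_le_add_left h2 _)

theorem finite_tup : Finite (Tup T W) := by
  refine Finite.of_injective (fun s : Tup T W => (s.A, ext0 s, s.t, s.w)) ?_
  intro s s' h
  simp only [Prod.mk.injEq] at h
  obtain ⟨h1, h2, h3, h4⟩ := h
  refine tup_ext h1 (fun x hx hx' => ?_) h3 h4
  rw [← ext0_of_mem hx, ← ext0_of_mem hx', h2]

omit [Finite T] [Finite W] in
theorem zm_eq_pre (s : Tup T W) (B : Submodule F W) (N₀ : T →ₗ[F] W) :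
    s.zm B N₀ = pre B N₀ s.A (ext0 s) := by
  ext N
  constructor
  · rintro ⟨h1, h2⟩
    exact ⟨h1, fun a ha => by rw [ext0_of_mem ha]; exact h2 ⟨a, ha⟩⟩
  · rintro ⟨h1, h2⟩
    exact ⟨h1, fun a => by rw [h2 a a.2, ext0_of_mem a.2]⟩

/-- Number of maps which agree on a subspace. -/
theorem card_agree {B : Submodule F W} {N₀ : T →ₗ[F] W} (S : Submodule F T)
    (X : Finset (T →ₗ[F] W)) (hX : ∀ N ∈ X, N - N₀ ∈ zoom B (⊥ : Submodule F T))
    (hag : ∀ N ∈ X, ∀ N' ∈ X, ∀ x ∈ S, N x = N' x) :
    (X.card : ℝ) ≤ (Nat.card B : ℝ) ^ finrank F T / (Nat.card B : ℝ) ^ finrank F S := by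
  have hfin := finite_hom (T := T) (W := W)
  rw [← card_zoom_real (T := T) B S]
  rcases X.eq_empty_or_nonempty with rfl | ⟨N₁, h1⟩
  · simp
  have h2 : (X : Set (T →ₗ[F] W)) ⊆ pre B N₀ S N₁ := fun N hN =>
    ⟨hX N hN, fun x hx => hag N hN N₁ h1 x hx⟩
  have h3 : X.card ≤ Nat.card (pre B N₀ S N₁) := by
    have := Nat.card_mono (Set.toFinite _) h2
    rwa [Nat.card_coe_set_eq, Set.ncard_coe_finset] at this
  have h4 := card_pre_le (B := B) (N₀ := N₀) (A := S) (c := N₁)
  exact_mod_cast h3.trans h4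

section Petals

variable {θ : ℝ} {j : ℕ} {G : (T →ₗ[F] W) → W} {B : Submodule F W} {N₀ : T →ₗ[F] W}

/-- A sunflower of candidates with the same attributes cannot be large. -/
theorem petals (hθ : 0 < θ) (K : Submodule F T) (SS : Finset (Submodule F T))
    (σ : Submodule F T → Tup T W) (hcand : ∀ D ∈ SS, σ D ∈ Cand θ (θ / 4) j G B N₀)
    (hD : ∀ D ∈ SS, Dsp (σ D) = D) (hsun : ∀ D ∈ SS, ∀ D' ∈ SS, D ≠ D' → D ⊓ D' = K)
    (hA : ∀ D ∈ SS, ∀ D' ∈ SS, ∀ x ∈ K, x ∈ (σ D).A ↔ x ∈ (σ D').A)
    (hb : ∀ D ∈ SS, ∀ D' ∈ SS, ∀ x ∈ K, ext0 (σ D) x = ext0 (σ D') x)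
    (hcase : (∀ D ∈ SS, ∀ κ ∈ K, (σ D).t - κ ∉ (σ D).A) ∨
      ∃ κ ∈ K, ∃ w' : W, ∀ D ∈ SS, (σ D).t - κ ∈ (σ D).A ∧
        (σ D).w + ext0 (σ D) ((σ D).t - κ) = w')
    (h2 : 2 ≤ SS.card) (hbig1 : 2 ≤ θ * (SS.card / (Nat.card B : ℝ) ^ j))
    (hbig2 : 1 < 9 / 16 * θ ^ 2 * (SS.card / (Nat.card B : ℝ) ^ j))
    (hB : 1 / (Nat.card B : ℝ) < θ ^ 2 / 2) : False := by
  classical
  have hfin := finite_hom (T := T) (W := W)
  let _ : Fintype (T →ₗ[F] W) := Fintype.ofFinite _
  obtain ⟨D0, hD0, D1, hD1, hne⟩ := Finset.one_lt_card.1 h2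
  set h : ℝ := (Nat.card B : ℝ) with hh
  have hcardB : 0 < Nat.card B := Nat.card_pos
  have h0 : 0 < h := by rw [hh]; exact_mod_cast hcardB
  have h1 : 1 ≤ h := by rw [hh]; exact_mod_cast hcardB
  set A0 : Submodule F T := (σ D0).A ⊓ K with hA0
  have hA0' : ∀ D ∈ SS, (σ D).A ⊓ K = A0 := by
    intro D hDS
    ext x
    rw [hA0, Submodule.mem_inf, Submodule.mem_inf]
    constructor
    · rintro ⟨hx, hxK⟩
      exact ⟨(hA D hDS D0 hD0 x hxK).1 hx, hxK⟩
    · rintro ⟨hx, hxK⟩
      exact ⟨(hA D hDS D0 hD0 x hxK).2 hx, hxK⟩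
  have hinf : ∀ D ∈ SS, ∀ D' ∈ SS, D ≠ D' → (σ D).A ⊓ (σ D').A = A0 := by
    intro D hDS D' hDS' hDD
    apply le_antisymm
    · rintro x ⟨hx, hx'⟩
      rw [← hA0' D hDS]
      refine ⟨hx, ?_⟩
      rw [← hsun D hDS D' hDS' hDD]
      constructor
      · rw [← hD D hDS]; exact A_le_Dsp _ hx
      · rw [← hD D' hDS']; exact A_le_Dsp _ hx'
    · apply le_inf
      · rw [← hA0' D hDS]; exact inf_le_left
      · rw [← hA0' D' hDS']; exact inf_le_left
  have hj : ∀ D ∈ SS, finrank F (σ D).A = j := fun D hDS => (hcand D hDS).1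
  set j0 := finrank F A0 with hj0
  have hj0j : j0 ≤ j := by
    rw [← hj D0 hD0]
    exact Submodule.finrank_mono inf_le_left
  set n := finrank F T with hn
  -- the events
  let E : Submodule F T → Finset (T →ₗ[F] W) := fun D =>
    Finset.univ.filter fun N => N ∈ (σ D).zm B N₀
  let Om : Finset (T →ₗ[F] W) := Finset.univ.filter fun N => N ∈ pre B N₀ A0 (ext0 (σ D0))
  let R : Submodule F T → Finset (T →ₗ[F] W) := fun D =>
    Finset.univ.filter fun N => N ∈ (σ D).ev G B N₀
  have hncard : ∀ P : Set (T →ₗ[F] W),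
      Nat.card P = (Finset.univ.filter fun N => N ∈ P).card := by
    intro P
    rw [Nat.card_eq_fintype_card, Fintype.card_subtype]
  have hEOm : ∀ D ∈ SS, E D ⊆ Om := by
    intro D hDS N hN
    simp only [E, Om, Finset.mem_filter, Finset.mem_univ, true_and] at hN ⊢
    rw [zm_eq_pre] at hN
    refine ⟨hN.1, fun a ha => ?_⟩
    have hA0D : a ∈ (σ D).A ⊓ K := by rw [hA0' D hDS]; exact ha
    rw [hN.2 a hA0D.1]
    exact hb D hDS D0 hD0 a hA0D.2
  have hRE : ∀ D ∈ SS, R D ⊆ E D := by
    intro D hDS N hN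
    simp only [E, R, Finset.mem_filter, Finset.mem_univ, true_and] at hN ⊢
    exact hN.1
  -- counts
  have hzm : ∀ D ∈ SS, (0 : ℝ) < Nat.card ((σ D).zm B N₀) ∧
      θ * Nat.card ((σ D).zm B N₀) ≤ Nat.card ((σ D).ev G B N₀) := by
    intro D hDS
    have h3 := (hcand D hDS).2.1
    unfold Tup.p at h3
    have h4 : (0 : ℝ) < Nat.card ((σ D).zm B N₀) := by
      rcases Nat.eq_zero_or_pos (Nat.card ((σ D).zm B N₀)) with h5 | h5
      · rw [h5, Nat.cast_zero, div_zero] at h3
        exact absurd hθ (not_lt.2 h3)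
      · exact_mod_cast h5
    exact ⟨h4, (le_div_iff₀ h4).1 h3⟩
  have hEcard : ∀ D ∈ SS, ((E D).card : ℝ) = h ^ n / h ^ j := by
    intro D hDS
    have h3 : Nat.card ((σ D).zm B N₀) = (E D).card := hncard _
    have h4 : ((σ D).zm B N₀).Nonempty := by
      have h5 := (hzm D hDS).1
      have h6 : 0 < Nat.card ((σ D).zm B N₀) := by exact_mod_cast h5
      exact Set.nonempty_coe_sort.1 (Nat.card_pos_iff.1 h6).1
    obtain ⟨N₁, hN₁⟩ := h4
    rw [zm_eq_pre] at hN₁
    rw [← h3, zm_eq_pre, card_pre_of_mem hN₁, card_zoom_real, hj D hDS]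
  have hE0ne : (E D0).Nonempty := by
    rw [← Finset.card_pos]
    have h3 := hEcard D0 hD0
    have h4 : (0 : ℝ) < (E D0).card := by rw [h3]; positivity
    exact_mod_cast h4
  have hOmne : Om.Nonempty := hE0ne.mono (hEOm D0 hD0)
  have hOmcard : (Om.card : ℝ) = h ^ n / h ^ j0 := by
    obtain ⟨N₁, hN₁⟩ := hOmne
    have h3 : N₁ ∈ pre B N₀ A0 (ext0 (σ D0)) := by
      simpa only [Om, Finset.mem_filter, Finset.mem_univ, true_and] using hN₁
    have h4 : Nat.card (pre B N₀ A0 (ext0 (σ D0))) = Om.card := hncard _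
    rw [← h4, card_pre_of_mem h3, card_zoom_real]
  set p : ℝ := h ^ j0 / h ^ j with hp
  have hp0 : 0 < p := by rw [hp]; positivity
  have hpge : 1 / h ^ j ≤ p := by
    rw [hp]
    exact div_le_div_of_nonneg_right (one_le_pow₀ h1) (by positivity)
  have hEp : ∀ D ∈ SS, ((E D).card : ℝ) = p * Om.card := by
    intro D hDS
    rw [hEcard D hDS, hOmcard, hp]
    field_simp
  have hSSne : SS.Nonempty := ⟨D0, hD0⟩
  have hs0 : (0 : ℝ) < SS.card := by exact_mod_cast hSSne.card_pos
  have hsum : ∀ D ∈ SS, ∀ D' ∈ SS, D ≠ D' →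
      finrank F ((σ D).A ⊔ (σ D').A : Submodule F T) + j0 = j + j := by
    intro D hDS D' hDS' hDD
    have h3 := Submodule.finrank_sup_add_finrank_inf_eq (σ D).A (σ D').A
    rw [hinf D hDS D' hDS' hDD, hj D hDS, hj D' hDS'] at h3
    exact h3
  have hEmem : ∀ D, ∀ N ∈ E D, N - N₀ ∈ zoom B (⊥ : Submodule F T) ∧
      ∀ a ∈ (σ D).A, N a = ext0 (σ D) a := by
    intro D N hN
    simp only [E, Finset.mem_filter, Finset.mem_univ, true_and] at hN
    rw [zm_eq_pre] at hN
    exact hN
  rcases hcase with hcase | ⟨κ, hκ, w', hcase⟩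
  · -- independent evaluation points
    have hpairs : ∀ D ∈ SS, ∀ D' ∈ SS, D ≠ D' →
        ((R D ∩ R D').card : ℝ) ≤ p ^ 2 / h * Om.card := by
      intro D hDS D' hDS' hDD
      set u : T := (σ D).t - (σ D').t with hu
      set S : Submodule F T := ((σ D).A ⊔ (σ D').A) ⊔ Submodule.span F {u} with hS
      have hunot : u ∉ (σ D).A ⊔ (σ D').A := by
        intro hmem
        obtain ⟨a, ha, a', ha', hsum'⟩ := Submodule.mem_sup.1 hmem
        have h3 : (σ D).t - a ∈ K := by
          rw [← hsun D hDS D' hDS' hDD]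
          constructor
          · have h4 := (Dsp (σ D)).sub_mem (t_mem_Dsp _) (A_le_Dsp _ ha)
            rwa [hD D hDS] at h4
          · have h4 : (σ D).t - a = (σ D').t + a' := by
              rw [hu] at hsum'
              rw [sub_eq_iff_eq_add, add_assoc, add_comm a' a, hsum']
              abel
            rw [h4]
            have h5 := (Dsp (σ D')).add_mem (t_mem_Dsp _) (A_le_Dsp _ ha')
            rwa [hD D' hDS'] at h5
        refine hcase D hDS _ h3 ?_
        rw [sub_sub_cancel]
        exact ha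
      have hrank : finrank F ((σ D).A ⊔ (σ D').A : Submodule F T) + 1 ≤ finrank F S := by
        apply Nat.succ_le_of_lt
        apply Submodule.finrank_lt_finrank_of_lt
        refine lt_of_le_of_ne le_sup_left fun h3 => hunot ?_
        rw [h3]
        exact (le_sup_right : _ ≤ S) (Submodule.mem_span_singleton_self _)
      have h5 := card_agree (B := B) (N₀ := N₀) S (R D ∩ R D')
        (fun N hN => (hEmem D N (hRE D hDS (Finset.mem_inter.1 hN).1)).1) (by
          intro N hN N' hN'
          rw [Finset.mem_inter] at hN hN'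
          have a1 := (hEmem D N (hRE D hDS hN.1)).2
          have a2 := (hEmem D' N (hRE D' hDS' hN.2)).2
          have a3 := (hEmem D N' (hRE D hDS hN'.1)).2
          have a4 := (hEmem D' N' (hRE D' hDS' hN'.2)).2
          have key : ∀ M : T →ₗ[F] W, M ∈ R D → M ∈ R D' → M u = (σ D').w - (σ D).w := by
            intro M hM hM'
            simp only [R, Finset.mem_filter, Finset.mem_univ, true_and] at hM hM'
            have b1 := hM.2
            have b2 := hM'.2
            rw [b1] at b2
            rw [hu, map_sub, sub_eq_sub_iff_add_eq_add, b2]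
            abel
          have h6 : S ≤ LinearMap.ker (N - N') := by
            rw [hS]
            refine sup_le (sup_le ?_ ?_) ?_
            · intro x hx
              rw [LinearMap.mem_ker, LinearMap.sub_apply, a1 x hx, a3 x hx, sub_self]
            · intro x hx
              rw [LinearMap.mem_ker, LinearMap.sub_apply, a2 x hx, a4 x hx, sub_self]
            · rw [Submodule.span_singleton_le_iff_mem, LinearMap.mem_ker, LinearMap.sub_apply,
                key N hN.1 hN.2, key N' hN'.1 hN'.2, sub_self]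
          intro x hx
          have h7 : (N - N') x = 0 := h6 hx
          rwa [LinearMap.sub_apply, sub_eq_zero] at h7)
      refine h5.trans ?_
      have h8 : h ^ (j + j + 1) ≤ h ^ (finrank F S + j0) := by
        apply pow_le_pow_right₀ h1
        have := hsum D hDS D' hDS' hDD
        omega
      rw [hOmcard, hp]
      have h9 : (h ^ j0 / h ^ j) ^ 2 / h * (h ^ n / h ^ j0) = h ^ n * h ^ j0 / h ^ (j + j + 1) := by
        have e1 : h ^ (j + j + 1) = h ^ j * h ^ j * h := by rw [pow_succ, pow_add]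
        rw [e1]
        field_simp
      rw [h9, div_le_div_iff₀ (by positivity) (by positivity)]
      rw [pow_add h (finrank F S) j0] at h8
      have h10 := mul_le_mul_of_nonneg_left h8 (pow_pos h0 n).le
      linarith
    have hR1 : ∀ D ∈ SS, θ * (p * Om.card) ≤ ((R D).card : ℝ) := by
      intro D hDS
      rw [← hEp D hDS]
      have h3 := (hzm D hDS).2
      have h4 : Nat.card ((σ D).zm B N₀) = (E D).card := hncard _
      have h5 : Nat.card ((σ D).ev G B N₀) = (R D).card := hncard _
      rwa [h4, h5] at h3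
    have h11 := sm_pairs hp0 hθ h0 hOmne hSSne (fun D hDS => (hRE D hDS).trans (hEOm D hDS))
      hR1 hpairs (by
        refine hbig1.trans (mul_le_mul_of_nonneg_left ?_ hθ.le)
        rw [div_eq_mul_one_div]
        exact mul_le_mul_of_nonneg_left hpge hs0.le)
    linarith
  · -- a common evaluation point
    have hE2 : ∀ D ∈ SS, ∀ D' ∈ SS, D ≠ D' →
        ((E D ∩ E D').card : ℝ) ≤ p ^ 2 * Om.card := by
      intro D hDS D' hDS' hDD
      set S : Submodule F T := (σ D).A ⊔ (σ D').A with hS
      have h5 := card_agree (B := B) (N₀ := N₀) S (E D ∩ E D')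
        (fun N hN => (hEmem D N (Finset.mem_inter.1 hN).1).1) (by
          intro N hN N' hN'
          rw [Finset.mem_inter] at hN hN'
          have a1 := (hEmem D N hN.1).2
          have a2 := (hEmem D' N hN.2).2
          have a3 := (hEmem D N' hN'.1).2
          have a4 := (hEmem D' N' hN'.2).2
          have h6 : S ≤ LinearMap.ker (N - N') := by
            rw [hS]
            refine sup_le ?_ ?_
            · intro x hx
              rw [LinearMap.mem_ker, LinearMap.sub_apply, a1 x hx, a3 x hx, sub_self]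
            · intro x hx
              rw [LinearMap.mem_ker, LinearMap.sub_apply, a2 x hx, a4 x hx, sub_self]
          intro x hx
          have h7 : (N - N') x = 0 := h6 hx
          rwa [LinearMap.sub_apply, sub_eq_zero] at h7)
      refine h5.trans (le_of_eq ?_)
      change h ^ n / h ^ finrank F S = p ^ 2 * (Om.card : ℝ)
      have h8 : h ^ (j + j) = h ^ (finrank F S + j0) := by
        rw [hsum D hDS D' hDS' hDD]
      rw [hOmcard, hp]
      rw [pow_add, pow_add] at h8
      have h9 : (h ^ j0 / h ^ j) ^ 2 * (h ^ n / h ^ j0) = h ^ n * h ^ j0 / (h ^ j * h ^ j) := by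
        rw [div_pow, div_mul_div_comm, div_eq_div_iff (by positivity) (by positivity)]
        ring
      rw [h9, h8]
      field_simp
    let Z : Finset (T →ₗ[F] W) := Om.filter fun N => G N = N κ + w'
    have hZc : (Z.card : ℝ) ≤ θ / 4 * Om.card := by
      have hAne : A0 ≠ (σ D0).A := by
        intro heq
        -- then `D0 ≤ K`
        have c1 : (σ D0).A ≤ K := by rw [← heq]; exact inf_le_right
        have c2 : (σ D1).A ≤ K := by
          have h3 : A0 ≤ (σ D1).A := by rw [← hA0' D1 hD1]; exact inf_le_left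
          have h4 : A0 = (σ D1).A := by
            apply Submodule.eq_of_le_of_finrank_eq h3
            rw [hj D1 hD1, heq, hj D0 hD0]
          rw [← h4]
          exact inf_le_right
        have c3 : ∀ D ∈ SS, (σ D).A ≤ K → D ≤ K := by
          intro D hDS hle
          rw [← hD D hDS]
          refine sup_le hle ?_
          rw [Submodule.span_singleton_le_iff_mem]
          have h3 := K.add_mem (hle (hcase D hDS).1) hκ
          rwa [sub_add_cancel] at h3
        have c4 := c3 D0 hD0 c1
        have c5 := c3 D1 hD1 c2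
        rw [← hsun D0 hD0 D1 hD1 hne] at c4 c5
        exact hne (le_antisymm (c4.trans inf_le_right) (c5.trans inf_le_left))
      have hmem := (hcase D0 hD0).1
      have h3 := (hcand D0 hD0).2.2 A0 inf_le_left hAne ⟨(σ D0).t - κ, hmem⟩
      set s' := (σ D0).sub A0 inf_le_left ⟨(σ D0).t - κ, hmem⟩ with hs'
      have h4 : s'.zm B N₀ = pre B N₀ A0 (ext0 (σ D0)) := by
        rw [zm_eq_pre]
        ext N
        constructor
        · rintro ⟨b1, b2⟩
          refine ⟨b1, fun a ha => ?_⟩
          have b3 := b2 a ha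
          rw [ext0_of_mem (s := s') ha] at b3
          rw [b3, ext0_of_mem ha.1]
          rfl
        · rintro ⟨b1, b2⟩
          refine ⟨b1, fun a ha => ?_⟩
          have b3 := b2 a ha
          rw [ext0_of_mem (s := s') ha, b3, ext0_of_mem (show a ∈ (σ D0).A from ha.1)]
          rfl
      have ht : s'.t = κ := by
        change (σ D0).t + ((σ D0).t - κ) = κ
        rw [← add_sub_assoc, ZModModule.add_self, zero_sub, ZModModule.neg_eq_self]
      have hw : s'.w = w' := by
        have := (hcase D0 hD0).2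
        rw [ext0_of_mem hmem] at this
        exact this
      unfold Tup.p at h3
      have h5 : Nat.card (s'.zm B N₀) = Om.card := by rw [h4]; exact hncard _
      have h6 : Nat.card (s'.ev G B N₀) = Z.card := by
        rw [hncard]
        congr 1
        ext N
        simp only [Z, Om, Finset.mem_filter, Finset.mem_univ, true_and]
        constructor
        · rintro ⟨b1, b2⟩
          rw [h4] at b1
          rw [ht, hw] at b2
          exact ⟨b1, b2⟩
        · rintro ⟨b1, b2⟩
          refine ⟨by rw [h4]; exact b1, ?_⟩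
          rw [ht, hw]
          exact b2
      have h7 : (0 : ℝ) < Om.card := by exact_mod_cast hOmne.card_pos
      rw [h5, h6, div_lt_iff₀ h7] at h3
      exact h3.le
    have hZE : ∀ D ∈ SS, θ * (E D).card ≤ ((Z ∩ E D).card : ℝ) := by
      intro D hDS
      have h3 := (hzm D hDS).2
      have h4 : Nat.card ((σ D).zm B N₀) = (E D).card := hncard _
      have h5 : Nat.card ((σ D).ev G B N₀) = (R D).card := hncard _
      rw [h4, h5] at h3
      have h6 : R D ⊆ Z ∩ E D := by
        intro N hN
        have hNE := hRE D hDS hN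
        rw [Finset.mem_inter]
        refine ⟨?_, hNE⟩
        simp only [Z, Finset.mem_filter]
        refine ⟨hEOm D hDS hNE, ?_⟩
        simp only [R, Finset.mem_filter, Finset.mem_univ, true_and] at hN
        rw [hN.2, ← (hcase D hDS).2, ← (hEmem D N hNE).2 _ (hcase D hDS).1, map_sub]
        abel
      exact h3.trans (by exact_mod_cast Finset.card_le_card h6)
    have h12 := sm_small hp0 hθ hOmne hSSne hEOm hEp hE2 (Finset.filter_subset _ _) hZc hZE
    have h13 : 9 / 16 * θ ^ 2 * (SS.card / h ^ j) ≤ 9 / 16 * θ ^ 2 * (SS.card * p) := by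
      apply mul_le_mul_of_nonneg_left _ (by positivity)
      rw [div_eq_mul_one_div]
      exact mul_le_mul_of_nonneg_left hpge hs0.le
    linarith

end Petals

end Vale.Agent.P325.H719
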