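import Mathlib

/-!
# Sunflowers of subspaces
-/

open Module Finset

namespace Vale.Agent.P325.H719

universe u v

variable {F : Type u} [Field F] [Finite F]

/-- Sunflower lemma for subspaces, relative form. -/
theorem sunflower_aux (s : ℕ) : ∀ d : ℕ, ∃ N : ℕ, ∀ (T : Type v) [AddCommGroup T] [Module F T]
    [Finite T] (K0 : Submodule F T) (DD : Finset (Submodule F T)),
    (∀ D ∈ DD, K0 ≤ D ∧ finrank F D ≤ finrank F K0 + d) → N ≤ DD.card →
    ∃ SS ⊆ DD, SS.card = s ∧ ∃ K : Submodule F T, ∀ D ∈ SS, ∀ D' ∈ SS, D ≠ D' → D ⊓ D' = K := by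
  classical
  intro d
  induction d with
  | zero =>
    refine ⟨2, fun T _ _ _ K0 DD hDD hN => ?_⟩
    exfalso
    have h1 : DD ⊆ {K0} := by
      intro D hD
      rw [Finset.mem_singleton]
      exact (Submodule.eq_of_le_of_finrank_le (hDD D hD).1 (by simpa using (hDD D hD).2)).symm
    have h2 := Finset.card_le_card h1
    rw [Finset.card_singleton] at h2
    omega
  | succ d ih =>
    obtain ⟨N, hN⟩ := ih
    refine ⟨s + s * (Nat.card F ^ (d + 1)) * N + 1, fun T _ _ _ K0 DD hDD hcard => ?_⟩
    -- a maximal family with pairwise intersections `K0`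
    let P := DD.powerset.filter fun SS => ∀ D ∈ SS, ∀ D' ∈ SS, D ≠ D' → D ⊓ D' = K0
    have hP : P.Nonempty := ⟨∅, by simp [P]⟩
    obtain ⟨SS, hSS, hmax⟩ := Finset.exists_max_image P Finset.card hP
    have hSS' : SS ⊆ DD ∧ ∀ D ∈ SS, ∀ D' ∈ SS, D ≠ D' → D ⊓ D' = K0 := by
      simpa [P] using hSS
    by_cases hs : s ≤ SS.card
    · obtain ⟨S1, hS1, hS1c⟩ := Finset.exists_subset_card_eq hs
      exact ⟨S1, hS1.trans hSS'.1, hS1c, K0, fun D hD D' hD' => hSS'.2 D (hS1 hD) D' (hS1 hD')⟩
    push Not at hs
    -- every other member meets the family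
    have hmeet : ∀ D ∈ DD \ SS, ∃ D' ∈ SS, ∃ v ∈ D ⊓ D', v ∉ K0 := by
      intro D hD
      rw [Finset.mem_sdiff] at hD
      by_contra hcon
      push Not at hcon
      have h1 : ∀ D' ∈ SS, D ⊓ D' = K0 := by
        intro D' hD'
        apply le_antisymm
        · intro v hv
          exact hcon D' hD' v hv
        · exact le_inf (hDD D hD.1).1 (hDD D' (hSS'.1 hD')).1
      have h2 : insert D SS ∈ P := by
        simp only [P, Finset.mem_filter, Finset.mem_powerset]
        refine ⟨Finset.insert_subset hD.1 hSS'.1, ?_⟩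
        intro E hE E' hE' hne
        rw [Finset.mem_insert] at hE hE'
        rcases hE with rfl | hE <;> rcases hE' with rfl | hE'
        · exact absurd rfl hne
        · exact h1 E' hE'
        · rw [inf_comm]; exact h1 E hE
        · exact hSS'.2 E hE E' hE' hne
      have h3 := hmax _ h2
      rw [Finset.card_insert_of_notMem hD.2] at h3
      omega
    choose! f hf w hw hw0 using hmeet
    -- the attribute
    let ty := Σ D' : SS, (D' : Submodule F T) ⧸ (K0.comap (D' : Submodule F T).subtype)
    have hq : ∀ D' : SS, Finite ((D' : Submodule F T) ⧸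
        (K0.comap (D' : Submodule F T).subtype)) := fun D' =>
      Finite.of_surjective _ (Submodule.mkQ_surjective _)
    have hfin : Finite ty := inferInstance
    let _ : Fintype ty := Fintype.ofFinite ty
    have htycard : Fintype.card ty ≤ s * Nat.card F ^ (d + 1) := by
      rw [← Nat.card_eq_fintype_card, Nat.card_sigma]
      calc ∑ D' : SS, Nat.card ((D' : Submodule F T) ⧸ (K0.comap (D' : Submodule F T).subtype))
          ≤ ∑ _D' : SS, Nat.card F ^ (d + 1) := by
            apply Finset.sum_le_sum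
            intro D' _
            have h1 := (hDD D' (hSS'.1 D'.2))
            have h2 : finrank F ((D' : Submodule F T) ⧸ (K0.comap (D' : Submodule F T).subtype)) ≤
                d + 1 := by
              have h3 := Submodule.finrank_quotient_add_finrank
                (K0.comap (D' : Submodule F T).subtype)
              have h4 : finrank F (K0.comap (D' : Submodule F T).subtype) = finrank F K0 := by
                exact (Submodule.comapSubtypeEquivOfLe h1.1).finrank_eq
              omega
            rw [Module.natCard_eq_pow_finrank (K := F)]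
            exact Nat.pow_le_pow_right Nat.card_pos h2
        _ = SS.card * Nat.card F ^ (d + 1) := by simp
        _ ≤ s * Nat.card F ^ (d + 1) := Nat.mul_le_mul_right _ hs.le
    have hne : Nonempty ty := by
      have h1 : (DD \ SS).Nonempty := by
        rw [← Finset.card_pos, Finset.card_sdiff_of_subset hSS'.1]
        omega
      obtain ⟨D, hD⟩ := h1
      exact ⟨⟨⟨f D, hf D hD⟩, 0⟩⟩
    let att : Submodule F T → ty := fun D =>
      if h : D ∈ DD \ SS then ⟨⟨f D, hf D h⟩, Submodule.Quotient.mk ⟨w D, (hw D h).2⟩⟩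
      else Classical.arbitrary _
    obtain ⟨y, -, hy⟩ := Finset.exists_lt_card_fiber_of_mul_lt_card_of_maps_to
      (s := DD \ SS) (t := (Finset.univ : Finset ty)) (f := att) (n := N)
      (fun _ _ => Finset.mem_univ _) (by
        rw [Finset.card_univ, Finset.card_sdiff_of_subset hSS'.1]
        have h1 : Fintype.card ty * N ≤ s * Nat.card F ^ (d + 1) * N :=
          Nat.mul_le_mul_right _ htycard
        omega)
    set FF := (DD \ SS).filter fun D => att D = y with hFF
    have hFne : FF.Nonempty := by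
      rw [← Finset.card_pos]; omega
    obtain ⟨D1, hD1⟩ := hFne
    have hD1' : D1 ∈ DD \ SS ∧ att D1 = y := by rw [hFF, Finset.mem_filter] at hD1; exact hD1
    -- the common vector
    have hcommon : ∀ D ∈ FF, w D1 ∈ D := by
      intro D hD
      have hD' : D ∈ DD \ SS ∧ att D = y := by rw [hFF, Finset.mem_filter] at hD; exact hD
      have h1 : att D = att D1 := hD'.2.trans hD1'.2.symm
      simp only [att, dif_pos hD'.1, dif_pos hD1'.1] at h1
      have key : ∀ (E E1 : SS) (x : (E : Submodule F T)) (x1 : (E1 : Submodule F T)),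
          (⟨E, Submodule.Quotient.mk x⟩ : ty) = ⟨E1, Submodule.Quotient.mk x1⟩ →
          (x1 : T) - x ∈ K0 := by
        intro E E1 x x1 h
        obtain rfl : E = E1 := congrArg Sigma.fst h
        have h2 := eq_of_heq (Sigma.mk.inj h).2
        have h3 := (Submodule.Quotient.eq _).1 h2.symm
        exact h3
      have h2 := key _ _ _ _ h1
      have h3 : w D1 - w D ∈ D := (hDD D (Finset.mem_sdiff.1 hD'.1).1).1 h2
      have h4 : w D ∈ D := (hw D hD'.1).1
      have h5 := D.add_mem h3 h4
      rwa [sub_add_cancel] at h5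
    have hlt : K0 < K0 ⊔ Submodule.span F {w D1} := by
      refine lt_of_le_of_ne le_sup_left fun h => hw0 D1 hD1'.1 ?_
      rw [h]
      exact le_sup_right (a := K0) (Submodule.mem_span_singleton_self _)
    obtain ⟨S1, hS1, hS1c, K, hK⟩ := hN T (K0 ⊔ Submodule.span F {w D1}) FF (by
      intro D hD
      have hD' : D ∈ DD \ SS ∧ att D = y := by rw [hFF, Finset.mem_filter] at hD; exact hD
      have h1 := hDD D (Finset.mem_sdiff.1 hD'.1).1
      refine ⟨sup_le h1.1 ((Submodule.span_singleton_le_iff_mem _ _).2 (hcommon D hD)), ?_⟩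
      have h2 := Submodule.finrank_lt_finrank_of_lt hlt
      omega) hy.le
    refine ⟨S1, hS1.trans ?_, hS1c, K, hK⟩
    intro D hD
    have hD' : D ∈ DD \ SS ∧ att D = y := by rw [hFF, Finset.mem_filter] at hD; exact hD
    exact (Finset.mem_sdiff.1 hD'.1).1

/-- **Sunflower lemma for subspaces.** -/
theorem sunflower (d s : ℕ) : ∃ N : ℕ, ∀ (T : Type v) [AddCommGroup T] [Module F T]
    [Finite T] (DD : Finset (Submodule F T)), (∀ D ∈ DD, finrank F D ≤ d) → N ≤ DD.card →
    ∃ SS ⊆ DD, SS.card = s ∧ ∃ K : Submodule F T, ∀ D ∈ SS, ∀ D' ∈ SS, D ≠ D' → D ⊓ D' = K := by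
  obtain ⟨N, hN⟩ := sunflower_aux.{u, v} (F := F) s d
  refine ⟨N, fun T _ _ _ DD hDD hc => hN T ⊥ DD (fun D hD => ⟨bot_le, ?_⟩) hc⟩
  rw [finrank_bot, zero_add]
  exact hDD D hD

end Vale.Agent.P325.H719
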